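import Vale.Agent.P241GK.Act
import Vale.Agent.P251.H.LocCpt
import Mathlib.CategoryTheory.Adjunction.Unique

/-!
# P241G: the generic half of the model (objects with an action; reflective subcategories)
-/

open CategoryTheory MonoidalCategory Limits
open Functor.LaxMonoidal Functor.OplaxMonoidal

noncomputable section

namespace Vale.Agent.P241GM

open P251.G P251.G.LC P251.H P241GA P241GK P241.St
open P241Z (reg)

universe u u' u''

section Mon

variable {A : Type u''} [Category.{0} A] [MonoidalCategory A] {C : Type u} [Category.{0} C]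
  [MonoidalCategory C] {D : Type u'} [Category.{0} D] [MonoidalCategory D]

theorem ev0_iso (j : A ⥤ C) [j.Monoidal] (F : C) {S S' : A} (e : S ⟶ S')
    (lam : F ⊗ j.obj S' ⟶ 𝟙_ C) (K : A) :
    ev0 j F S (F ◁ j.map e ≫ lam) K = F ◁ j.map (e ▷ K) ≫ ev0 j F S' lam K := by
  rw [ev0, ev0, ← whiskerLeft_comp_assoc, ← δ_natural_left, whiskerLeft_comp_assoc,
    associator_inv_naturality_middle_assoc, comp_whiskerRight_assoc]

theorem ev0_comp (j : A ⥤ C) [j.Monoidal] (r : C ⥤ D) [r.Monoidal] (F : C) (S : A)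
    (lam : F ⊗ j.obj S ⟶ 𝟙_ C) (K : A) :
    ev0 (j ⋙ r) (r.obj F) S (μ r F (j.obj S) ≫ r.map lam ≫ η r) K =
      μ r F (j.obj (S ⊗ K)) ≫ r.map (ev0 j F S lam K) := by
  simp only [ev0, Functor.OplaxMonoidal.comp_δ, Functor.comp_obj, Functor.map_comp,
    MonoidalCategory.whiskerLeft_comp, comp_whiskerRight, Category.assoc]
  rw [← μ_natural_right_assoc, Functor.Monoidal.map_associator_inv,
    Functor.Monoidal.map_whiskerRight, Functor.Monoidal.map_leftUnitor]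
  simp only [Category.assoc, Functor.Monoidal.μ_δ_assoc]

theorem conj_rot (j : LC ⥤ C) [j.Monoidal] {X Y : C} (φ : X ≅ Y) (l : Y ⟶ 𝟙_ C)
    (h : JHomotopic j (l ▷ Y ≫ (λ_ Y).hom) (Y ◁ l ≫ (ρ_ Y).hom)) :
    JHomotopic j ((φ.hom ≫ l) ▷ X ≫ (λ_ X).hom) (X ◁ (φ.hom ≫ l) ≫ (ρ_ X).hom) := by
  have h1 := P251CR.jhomotopic_conj j h (φ.hom ⊗ₘ φ.hom) φ.inv
  have e1 : (φ.hom ⊗ₘ φ.hom) ≫ (l ▷ Y ≫ (λ_ Y).hom) ≫ φ.inv = (φ.hom ≫ l) ▷ X ≫ (λ_ X).hom := by
    rw [tensorHom_def, comp_whiskerRight]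
    simp only [Category.assoc]
    rw [whisker_exchange_assoc, leftUnitor_naturality_assoc, Iso.hom_inv_id, Category.comp_id]
  have e2 : (φ.hom ⊗ₘ φ.hom) ≫ (Y ◁ l ≫ (ρ_ Y).hom) ≫ φ.inv = X ◁ (φ.hom ≫ l) ≫ (ρ_ X).hom := by
    rw [tensorHom_def', MonoidalCategory.whiskerLeft_comp]
    simp only [Category.assoc]
    rw [← whisker_exchange_assoc, rightUnitor_naturality_assoc, Iso.hom_inv_id, Category.comp_id]
  rw [e1, e2] at h1
  exact h1

theorem rot_map (j : LC ⥤ C) [j.Monoidal] (r : C ⥤ D) [r.Monoidal] {Y : C} (l : Y ⟶ 𝟙_ C)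
    (h : JHomotopic j (l ▷ Y ≫ (λ_ Y).hom) (Y ◁ l ≫ (ρ_ Y).hom)) :
    JHomotopic (j ⋙ r) ((r.map l ≫ η r) ▷ r.obj Y ≫ (λ_ (r.obj Y)).hom)
      (r.obj Y ◁ (r.map l ≫ η r) ≫ (ρ_ (r.obj Y)).hom) := by
  have h1 := P251CR.jhomotopic_conj (j ⋙ r) (P251CR.jhomotopic_map r j h) (μ r Y Y) (𝟙 _)
  have e1 : μ r Y Y ≫ r.map (l ▷ Y ≫ (λ_ Y).hom) ≫ 𝟙 _ =
      (r.map l ≫ η r) ▷ r.obj Y ≫ (λ_ (r.obj Y)).hom := by
    simp only [Functor.map_comp, Functor.Monoidal.map_whiskerRight,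
      Functor.Monoidal.map_leftUnitor, Category.assoc, Functor.Monoidal.μ_δ_assoc,
      comp_whiskerRight, Category.comp_id]
  have e2 : μ r Y Y ≫ r.map (Y ◁ l ≫ (ρ_ Y).hom) ≫ 𝟙 _ =
      r.obj Y ◁ (r.map l ≫ η r) ≫ (ρ_ (r.obj Y)).hom := by
    simp only [Functor.map_comp, Functor.Monoidal.map_whiskerLeft,
      Functor.Monoidal.map_rightUnitor, Category.assoc, Functor.Monoidal.μ_δ_assoc,
      MonoidalCategory.whiskerLeft_comp, Category.comp_id]
  rw [e1, e2] at h1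
  exact h1

theorem jincl_assoc (t : LC ⥤ A) [t.Monoidal] (j : A ⥤ C) [j.Monoidal] (r : C ⥤ D) [r.Monoidal]
    (s : unitInterval) (X : D) : jincl (t ⋙ j ⋙ r) s X = jincl ((t ⋙ j) ⋙ r) s X := by
  simp only [jincl, Functor.LaxMonoidal.comp_ε, Functor.comp_map, Functor.map_comp,
    Category.assoc]

theorem jh_assoc (t : LC ⥤ A) [t.Monoidal] (j : A ⥤ C) [j.Monoidal] (r : C ⥤ D) [r.Monoidal]
    {X Y : D} {f g : X ⟶ Y} (h : JHomotopic ((t ⋙ j) ⋙ r) f g) : JHomotopic (t ⋙ j ⋙ r) f g := by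
  obtain ⟨H, h0, h1⟩ := h
  exact ⟨H, (congrArg (· ≫ H) (jincl_assoc t j r 0 X)).trans h0,
    (congrArg (· ≫ H) (jincl_assoc t j r 1 X)).trans h1⟩

theorem ev0_bij_comp (j : A ⥤ C) [j.Monoidal] {r : C ⥤ D} {q : D ⥤ C} [r.Monoidal]
    (adj : r ⊣ q) [q.Full] [q.Faithful] (F : C) (S : A) (lam : F ⊗ j.obj S ⟶ 𝟙_ C) (K : A)
    [IsIso (adj.unit.app (j.obj K))] [IsIso (adj.unit.app (j.obj (S ⊗ K)))]
    (h : ∀ X : C, Function.Bijective (fun x : X ⟶ j.obj (S ⊗ K) => F ◁ x ≫ ev0 j F S lam K))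
    (X : D) : Function.Bijective (fun x : X ⟶ r.obj (j.obj (S ⊗ K)) =>
      r.obj F ◁ x ≫ μ r F (j.obj (S ⊗ K)) ≫ r.map (ev0 j F S lam K)) := by
  have h1 : ∀ Y : C, Function.Bijective (fun x : r.obj Y ⟶ r.obj (j.obj (S ⊗ K)) =>
      r.obj F ◁ x ≫ μ r F (j.obj (S ⊗ K)) ≫ r.map (ev0 j F S lam K)) := by
    intro Y
    refine (Function.Bijective.of_comp_iff _ (P251CR.map_bij adj Y (j.obj (S ⊗ K)))).mp ?_
    have h2 := ((P251CR.bij_pre (μ r F Y) (r.obj (j.obj K))).comp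
      (P251CR.map_bij adj (F ⊗ Y) (j.obj K))).comp (h Y)
    refine (congrArg Function.Bijective ?_).mp h2
    funext y
    simp only [Function.comp]
    rw [r.map_comp, ← μ_natural_right_assoc]
  refine (Function.Bijective.of_comp_iff'
    (P251CR.bij_pre (r.obj F ◁ adj.counit.app X) (r.obj (j.obj K))) _).mp ?_
  have h3 := (h1 (q.obj X)).comp (P251CR.bij_pre (adj.counit.app X) (r.obj (j.obj (S ⊗ K))))
  refine (congrArg Function.Bijective ?_).mp h3
  funext x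
  simp only [Function.comp]
  rw [← Category.assoc, ← Category.assoc (r.obj F ◁ adj.counit.app X),
    ← MonoidalCategory.whiskerLeft_comp, Category.assoc]

end Mon

variable {G : Type} [Group G]

section Act

variable {V : Type u} [Category.{0} V]

theorem finFactor_action [HasZeroMorphisms V] [HasColimitsOfSize.{0, 0} V] {A : Action V G}
    (h : FinFactor A.V) : FinFactor A := by
  intro ι X f
  let U := Action.forget V G
  obtain ⟨s, g, hg⟩ := h (fun i => U.obj (X i)) (U.map f ≫ inv (sigmaComparison U X))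
  have h1 : U.map f = (g ≫ sigmaComparison U (fun i : s => X i)) ≫ U.map (sigmaSub s X) := by
    rw [Category.assoc, ← sigmaSub_comparison, ← Category.assoc]
    exact ((IsIso.eq_comp_inv _).mp hg).symm
  refine ⟨s, f ≫ sigmaRet s X, U.map_injective ?_⟩
  change U.map ((f ≫ sigmaRet s X) ≫ sigmaSub s X) = U.map f
  have h2 : U.map (sigmaSub s X) ≫ U.map (sigmaRet s X ≫ sigmaSub s X) =
      U.map (sigmaSub s X) := by
    rw [← U.map_comp, ← Category.assoc, sigmaSub_sigmaRet, Category.id_comp]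
  rw [Category.assoc, U.map_comp, h1]
  exact (Category.assoc _ _ _).trans (congrArg (_ ≫ ·) h2)

variable [MonoidalCategory V]

theorem ev0_hom (j : LC ⥤ V) [j.Monoidal] (F : Action V G) (S : LG G)
    (lam : F ⊗ (j.mapAction G).obj S ⟶ 𝟙_ (Action V G)) (Y : LG G) :
    (ev0 (j.mapAction G) F S lam Y).hom = ev0 j F.V S.V lam.hom Y.V := by
  have h1 := Action.associator_inv_hom F ((j.mapAction G).obj S) ((j.mapAction G).obj Y)
  have h2 := Action.leftUnitor_hom_hom ((j.mapAction G).obj Y)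
  exact congrArg₂ (fun a b => F.V ◁ δ j S.V Y.V ≫ a ≫ lam.hom ▷ j.obj Y.V ≫ b) h1 h2

theorem ev_bij_action (j : LC ⥤ V) [j.Monoidal] (F : Action V G) (S : LG G)
    (lam : F ⊗ (j.mapAction G).obj S ⟶ 𝟙_ (Action V G))
    (hev : ∀ (X : V) (K : LC), Function.Bijective
      fun x : X ⟶ j.obj (S.V ⊗ K) => F.V ◁ x ≫ ev0 j F.V S.V lam.hom K)
    (X : Action V G) (Y : LG G) : Function.Bijective
      fun x : X ⟶ (j.mapAction G).obj (S ⊗ Y) => F ◁ x ≫ ev0 (j.mapAction G) F S lam Y := by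
  have he := ev0_hom j F S lam Y
  refine ⟨fun x y h => Action.hom_ext _ _ ((hev X.V Y.V).1
    ((congrArg (F.V ◁ x.hom ≫ ·) he).symm.trans ((congrArg Action.Hom.hom h).trans
      (congrArg (F.V ◁ y.hom ≫ ·) he)))), fun g => ?_⟩
  obtain ⟨x, hx⟩ := (hev X.V Y.V).2 g.hom
  refine ⟨⟨x, fun a => (hev X.V Y.V).1 ?_⟩,
    Action.hom_ext _ _ ((congrArg (F.V ◁ x ≫ ·) he).trans hx)⟩
  have hi : IsIso (F.ρ a : F.V ⟶ F.V) := (F.ρAut a).isIso_hom
  have hx' : F.V ◁ x ≫ ev0 j F.V S.V lam.hom Y.V = g.hom := hx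
  have h1 : ((F.ρ a : F.V ⟶ F.V) ⊗ₘ (X.ρ a : X.V ⟶ X.V)) ≫
      F.V ◁ x ≫ ev0 j F.V S.V lam.hom Y.V = g.hom ≫ j.map (Y.ρ a) :=
    (congrArg (_ ≫ ·) hx').trans (g.comm a)
  have h2 : ((F.ρ a : F.V ⟶ F.V) ⊗ₘ j.map ((S.ρ a : S.V ⟶ S.V) ⊗ₘ (Y.ρ a : Y.V ⟶ Y.V))) ≫
      ev0 j F.V S.V lam.hom Y.V = ev0 j F.V S.V lam.hom Y.V ≫ j.map (Y.ρ a) :=
    (congrArg (_ ≫ ·) he).symm.trans (((ev0 (j.mapAction G) F S lam Y).comm a).trans
      (congrArg (· ≫ _) he))
  change F.V ◁ ((X.ρ a : X.V ⟶ X.V) ≫ x) ≫ ev0 j F.V S.V lam.hom Y.V =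
    F.V ◁ (x ≫ j.map ((S.ρ a : S.V ⟶ S.V) ⊗ₘ (Y.ρ a : Y.V ⟶ Y.V))) ≫ ev0 j F.V S.V lam.hom Y.V
  rw [← cancel_epi ((F.ρ a : F.V ⟶ F.V) ▷ X.V), whiskerLeft_comp_assoc, whiskerLeft_comp_assoc,
    ← tensorHom_def_assoc, h1, ← whisker_exchange_assoc, ← tensorHom_def_assoc, h2]
  exact ((Category.assoc _ _ _).symm.trans (congrArg (· ≫ _) hx')).symm

theorem tf_V (j : LC ⥤ V) (F : Action V G) (n : ℕ) (K : LG G) :
    ((tf (j.mapAction G) F n).obj K).V = tf0 F.V (j.obj K.V) n := by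
  induction n with
  | zero => rfl
  | succ n ih => exact congrArg (F.V ⊗ ·) ih

end Act

variable [Finite G]

section
variable {V : Type u} [Category.{0} V] [MonoidalCategory V] [SymmetricCategory V]
  [MonoidalClosed V] [HasZeroMorphisms V] [HasColimitsOfSize.{0, 0} V]

/-- The input structure on the objects with an action. -/
@[instance_reducible]
def mkGIn (j : LC ⥤ V) [j.Braided] [j.Full] [j.Faithful] (h0 : IsZero (j.obj (LC.of Empty)))
    (hp : ∀ {A B C D : LC} (i : A ⟶ B) (f : A ⟶ C) (g : B ⟶ D) (k : C ⟶ D),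
      Function.Injective (app i) → IsPushout i f g k →
        IsPushout (j.map i) (j.map f) (j.map g) (j.map k))
    (F : Action V G) (S : LG G) (e : Vg G ≅ S) (lam : F ⊗ (j.mapAction G).obj S ⟶ 𝟙_ (Action V G))
    (hev : ∀ (X : V) (K : LC), Function.Bijective
      fun x : X ⟶ j.obj (S.V ⊗ K) => F.V ◁ x ≫ ev0 j F.V S.V lam.hom K)
    (hrot : JHomotopic (triv LC G ⋙ j.mapAction G)
      (lam ▷ (F ⊗ (j.mapAction G).obj S) ≫ (λ_ _).hom)
      ((F ⊗ (j.mapAction G).obj S) ◁ lam ≫ (ρ_ _).hom))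
    (hfin : ∀ (n : ℕ) (K : LC), FinFactor (tf0 F.V (j.obj K) n)) : GIn G (Action V G) where
  jG := j.mapAction G
  braided := inferInstance
  full := inferInstance
  isZero_empty := (IsZero.iff_id_eq_zero _).mpr (Action.hom_ext _ _ (h0.eq_of_src _ _))
  pushout i f g k hi h := IsPushout.of_map (Action.forget V G)
    (Action.hom_ext _ _ (hp _ _ _ _ hi h).w) (hp _ _ _ _ hi h)
  F := F
  lamF := F ◁ (j.mapAction G).map e.hom ≫ lam
  ev_bij X Y := by
    have h := (ev_bij_action j F S lam hev X Y).comp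
      (P251CR.bij_post ((j.mapAction G).map (e.hom ▷ Y)) X)
    refine (congrArg Function.Bijective (funext fun x => ?_)).mp h
    exact ((congrArg (F ◁ x ≫ ·) (ev0_iso (j.mapAction G) F e.hom lam Y)).trans
      (whiskerLeft_comp_assoc _ _ _ _).symm).symm
  rotF := conj_rot _ (whiskerLeftIso F ((j.mapAction G).mapIso e)) lam hrot
  fin n K := finFactor_action (by
    rw [tf_V]
    exact hfin n K.V)

end

section
variable {C : Type u} [Category.{0} C] [MonoidalCategory C] [SymmetricCategory C]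
  [MonoidalClosed C] [HasZeroMorphisms C] [HasColimitsOfSize.{0, 0} C] [GIn G C]
  {D : Type u'} [Category.{0} D] [MonoidalCategory D] [SymmetricCategory D]
  [MonoidalClosed D] [HasZeroMorphisms D] [HasColimitsOfSize.{0, 0} D]
  {r : C ⥤ D} {q : D ⥤ C} [r.Braided]

variable (r) in
/-- the objects `F^a K` and the reflector -/
def tfIso : (a : ℕ) → (K : LG G) →
    ((tf (GIn.JG C ⋙ r) (r.obj GIn.F) a).obj K ≅ r.obj ((GIn.TF C a).obj K))
  | 0, _ => Iso.refl _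
  | a + 1, K => whiskerLeftIso _ (tfIso a K) ≪≫ Functor.Monoidal.μIso r _ _

/-- The input structure on a reflective subcategory. -/
@[instance_reducible]
def refl (adj : r ⊣ q) [q.Full] [q.Faithful]
    (hj : ∀ K : LG G, IsIso (adj.unit.app ((GIn.JG C).obj K)))
    (hfin : ∀ (ι : Type) (X : ι → D), IsIso (adj.unit.app (∐ fun i => q.obj (X i)))) :
    GIn G D where
  jG := GIn.JG C ⋙ r
  braided := inferInstance
  full := ⟨fun {X Y} f => by
    have := hj Y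
    obtain ⟨g, hg⟩ := (P251CR.map_bij adj ((GIn.JG C).obj X) ((GIn.JG C).obj Y)).2 f
    obtain ⟨k, rfl⟩ := (GIn.JG C).map_surjective g
    exact ⟨k, hg⟩⟩
  isZero_empty := by
    have := hj ((triv LC G).obj (LC.of Empty))
    exact IsZero.of_full_of_faithful_of_isZero q _ ((GIn.isZero_empty (M := C)).of_iso
      (asIso (adj.unit.app ((GIn.JG C).obj ((triv LC G).obj (LC.of Empty))))).symm)
  pushout i f g k hi h := by
    have := adj.leftAdjoint_preservesColimits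
    exact (GIn.pushout (M := C) i f g k hi h).map r
  F := r.obj GIn.F
  lamF := μ r _ _ ≫ r.map GIn.lamF ≫ η r
  ev_bij X Y := by
    have := hj Y
    have := hj (Vg G ⊗ Y)
    have h := ev0_bij_comp (GIn.JG C) adj GIn.F (Vg G) GIn.lamF Y (fun X => GIn.ev_bij X Y) X
    refine (congrArg Function.Bijective (funext fun x => ?_)).mp h
    exact congrArg (r.obj GIn.F ◁ x ≫ ·) (ev0_comp (GIn.JG C) r GIn.F (Vg G) GIn.lamF Y).symm
  rotF := conj_rot _ (Functor.Monoidal.μIso r _ _) _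
    (jh_assoc _ _ _ (rot_map (triv LC G ⋙ GIn.JG C) r GIn.lamF GIn.rotF))
  fin n K := GIn.finFactor_of_iso (tfIso r n K) (P251CR.finFactor_comp adj hfin (GIn.fin n K))

omit [MonoidalClosed D] [HasZeroMorphisms D] [HasColimitsOfSize.{0, 0} D] in
@[reassoc]
theorem tfIso_nat (a : ℕ) {K K' : LG G} (p : K ⟶ K') :
    (tf (GIn.JG C ⋙ r) (r.obj GIn.F) a).map p ≫ (tfIso r a K').hom =
      (tfIso r a K).hom ≫ r.map ((GIn.TF C a).map p) := by
  induction a with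
  | zero => exact (Category.comp_id _).trans (Category.id_comp _).symm
  | succ a ih =>
    change r.obj GIn.F ◁ (tf (GIn.JG C ⋙ r) (r.obj GIn.F) a).map p ≫
      r.obj GIn.F ◁ (tfIso r a K').hom ≫ μ r _ _ =
        (r.obj GIn.F ◁ (tfIso r a K).hom ≫ μ r _ _) ≫ r.map (GIn.F ◁ (GIn.TF C a).map p)
    rw [← whiskerLeft_comp_assoc, ih, whiskerLeft_comp_assoc, μ_natural_right, Category.assoc]

omit [SymmetricCategory C] [MonoidalClosed C] [HasZeroMorphisms C] [HasColimitsOfSize.{0, 0} C]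
  [GIn G C] [SymmetricCategory D] [HasZeroMorphisms D] [HasColimitsOfSize.{0, 0} D] [r.Braided] in
theorem exists_shIso' [r.Monoidal] (adj : r ⊣ q) (A : C) (Sh : C ⥤ C) (h : tensorLeft A ⊣ Sh) :
    Nonempty (ihom (r.obj A) ⋙ q ≅ q ⋙ Sh) :=
  ⟨((adj.comp (ihom.adjunction (r.obj A))).ofNatIsoLeft
    (Functor.Monoidal.commTensorLeft r A)).rightAdjointUniq (h.comp adj)⟩

omit [MonoidalClosed C] [HasZeroMorphisms C] [HasColimitsOfSize.{0, 0} C]
  [GIn G C] [HasZeroMorphisms D] [HasColimitsOfSize.{0, 0} D] in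
theorem exists_shIso (adj : r ⊣ q) (A : C) (Sh : C ⥤ C) (h : tensorLeft A ⊣ Sh) :
    Nonempty (ihom (r.obj A) ⋙ q ≅ q ⋙ Sh) := exists_shIso' adj A Sh h

variable (adj : r ⊣ q) [q.Full] [q.Faithful]
  (hj : ∀ K : LG G, IsIso (adj.unit.app ((GIn.JG C).obj K)))
  (hfin : ∀ (ι : Type) (X : ι → D), IsIso (adj.unit.app (∐ fun i => q.obj (X i))))

theorem tfIso_tfR (a : ℕ) (K K' : LG G) :
    (@GIn.tfR G _ _ D _ _ _ _ _ _ (refl adj hj hfin) a K K').hom ≫ (tfIso r a (K ⊗ K')).hom =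
      (tfIso r a K).hom ▷ r.obj ((GIn.JG C).obj K') ≫ μ r _ _ ≫
        r.map (GIn.tfR C a K K').hom := by
  induction a with
  | zero =>
    exact (Category.comp_id _).trans ((Category.id_comp _).symm.trans
      (congrArg (· ≫ _) (id_whiskerRight _ _).symm))
  | succ a ih =>
    have ih' := congrArg (r.obj (GIn.F : C) ◁ ·) ih
    refine Eq.trans (Category.assoc _ _ _) ?_
    refine (congrArg ((α_ _ _ _).hom ≫ ·) ((whiskerLeft_comp_assoc _ _ _ _).symm.trans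
      (congrArg (· ≫ μ r _ _) ih'))).trans ?_
    change (α_ _ _ _).hom ≫ r.obj GIn.F ◁ ((tfIso r a K).hom ▷ r.obj ((GIn.JG C).obj K') ≫
      μ r ((GIn.TF C a).obj K) ((GIn.JG C).obj K') ≫ r.map (GIn.tfR C a K K').hom) ≫
        μ r GIn.F ((GIn.TF C a).obj (K ⊗ K')) =
      (r.obj GIn.F ◁ (tfIso r a K).hom ≫ μ r GIn.F ((GIn.TF C a).obj K)) ▷
        r.obj ((GIn.JG C).obj K') ≫ μ r (GIn.F ⊗ (GIn.TF C a).obj K) ((GIn.JG C).obj K') ≫
          r.map ((α_ _ _ _).hom ≫ GIn.F ◁ (GIn.tfR C a K K').hom)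
    rw [whiskerLeft_comp_assoc, whiskerLeft_comp_assoc, μ_natural_right,
      ← associator_naturality_middle_assoc, comp_whiskerRight_assoc, r.map_comp,
      Functor.LaxMonoidal.associativity_assoc]

theorem tfIso_tfL (a : ℕ) (K' K : LG G) :
    (@GIn.tfL G _ _ D _ _ _ _ _ _ (refl adj hj hfin) a K' K).hom ≫ (tfIso r a (K' ⊗ K)).hom =
      r.obj ((GIn.JG C).obj K') ◁ (tfIso r a K).hom ≫ μ r _ _ ≫
        r.map (GIn.tfL C a K' K).hom := by
  have h1 := tfIso_tfR adj hj hfin a K K'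
  have h2 := tfIso_nat (r := r) a (β_ K K').hom
  refine ((Category.assoc _ _ _).trans (congrArg ((β_ _ _).hom ≫ ·) ((Category.assoc _ _ _).trans
    ((congrArg (_ ≫ ·) h2).trans ((Category.assoc _ _ _).symm.trans
      (congrArg (· ≫ _) h1)))))).trans ?_
  change (β_ (r.obj ((GIn.JG C).obj K')) ((tf (GIn.JG C ⋙ r) (r.obj GIn.F) a).obj K)).hom ≫
    ((tfIso r a K).hom ▷ r.obj ((GIn.JG C).obj K') ≫ μ r _ _ ≫ r.map (GIn.tfR C a K K').hom) ≫
      r.map ((GIn.TF C a).map (β_ K K').hom) = _ ≫ _ ≫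
    r.map ((β_ _ _).hom ≫ (GIn.tfR C a K K').hom ≫ (GIn.TF C a).map (β_ K K').hom)
  rw [r.map_comp, r.map_comp, Functor.LaxBraided.braided_assoc,
    BraidedCategory.braiding_naturality_right_assoc, Category.assoc, Category.assoc]

theorem tfIso_vIso (a : ℕ) (K : GSpace G) :
    (@GIn.vIso G _ _ D _ _ _ _ _ _ (refl adj hj hfin) a K).hom ≫
        (tfIso r (a + 1) (gl ((reg G).prod K))).hom =
      (μ r GIn.F ((GIn.JG C).obj (Vg G)) ⊗ₘ (tfIso r a (gl K)).hom) ≫ μ r _ _ ≫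
        r.map (GIn.vIso C a K).hom := by
  have h1 := tfIso_tfL adj hj hfin a (Vg G) (gl K)
  have h2 := tfIso_nat (r := r) a (glProd (reg G) K).hom
  have h3 := (Category.assoc _ _ _).trans ((congrArg (_ ≫ ·) h2).trans
    ((Category.assoc _ _ _).symm.trans
      (congrArg (· ≫ r.map ((GIn.TF C a).map (glProd (reg G) K).hom)) h1)))
  refine ((Category.assoc _ _ _).trans (congrArg ((α_ _ _ _).hom ≫ ·)
    ((whiskerLeft_comp_assoc _ _ _ _).symm.trans
      (congrArg (fun z => r.obj (GIn.F : C) ◁ z ≫ μ r _ _) h3)))).trans ?_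
  change (α_ _ _ _).hom ≫ r.obj GIn.F ◁ ((r.obj ((GIn.JG C).obj (Vg G)) ◁ (tfIso r a (gl K)).hom ≫
    μ r _ _ ≫ r.map (GIn.tfL C a (Vg G) (gl K)).hom) ≫
      r.map ((GIn.TF C a).map (glProd (reg G) K).hom)) ≫
        μ r GIn.F ((GIn.TF C a).obj (gl ((reg G).prod K))) = _ ≫ _ ≫
    r.map ((α_ _ _ _).hom ≫ GIn.F ◁ ((GIn.tfL C a (Vg G) (gl K)).hom ≫
      (GIn.TF C a).map (glProd (reg G) K).hom))
  rw [Category.assoc, Category.assoc, ← r.map_comp, whiskerLeft_comp_assoc, whiskerLeft_comp_assoc,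
    μ_natural_right, ← associator_naturality_right_assoc, r.map_comp, tensorHom_def'_assoc,
    Functor.LaxMonoidal.associativity_assoc]

theorem tfIso_stb (a : ℕ) (K : GSpace G) :
    @GIn.stb G _ _ D _ _ _ _ _ _ (refl adj hj hfin) a K ≫ (tfIso r a (gl K)).hom =
      (tfIso r (a + 1) _).hom ≫ r.map (GIn.stb C a K) := by
  have h := tfIso_vIso adj hj hfin a K
  refine (Category.assoc _ _ _).trans ((Iso.inv_comp_eq _).mpr ?_)
  refine Eq.trans ?_ (((Category.assoc _ _ _).symm.trans (congrArg (· ≫ _) h)).symm)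
  change ((μ r GIn.F ((GIn.JG C).obj (Vg G)) ≫ r.map GIn.lamF ≫ η r) ▷
    (tf (GIn.JG C ⋙ r) (r.obj GIn.F) a).obj (gl K) ≫ (λ_ _).hom) ≫ (tfIso r a (gl K)).hom =
    (_ ≫ _ ≫ r.map (GIn.vIso C a K).hom) ≫
      r.map ((GIn.vIso C a K).inv ≫ GIn.lamF ▷ (GIn.TF C a).obj (gl K) ≫ (λ_ _).hom)
  rw [Category.assoc, Category.assoc, Category.assoc, ← r.map_comp, Iso.hom_inv_id_assoc,
    ← leftUnitor_naturality, ← whisker_exchange_assoc, tensorHom_def'_assoc, r.map_comp,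
    Functor.Monoidal.map_whiskerRight, Functor.Monoidal.map_leftUnitor]
  simp only [Category.assoc, Functor.Monoidal.μ_δ_assoc, comp_whiskerRight]

end

end Vale.Agent.P241GM
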