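import Vale.Agent.P241GM.Gen
import Vale.Agent.P251CV.R
import Vale.Agent.P251CX.Dic

/-!
# P241G: orthogonal `G`-spectra as a reflective subcategory of the continuous functors with an action
-/

open CategoryTheory MonoidalCategory Limits

noncomputable section

namespace Vale.Agent.P241GM

open P251.G P251.H P241GA P241GK P251CA P251CA.CF P251CR
open P251CV (R)

/-- orthogonal spectra with the smash product -/
abbrev M0 : Type 1 := RM R

/-- the comparison with the orthogonal spectra of the statement -/
def o1 : P251C.OSp ⥤ P251CX.OSp where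
  obj := P251CX.nw
  map f := ⟨fun n => f.app n, fun n => ⟨(f.app n).continuous, f.pt n, fun m e x => f.nat m n e x⟩⟩
  map_id _ := rfl
  map_comp _ _ := rfl

instance : o1.Full where
  map_surjective g := ⟨⟨fun n => ⟨g.app n, (g.ok n).1⟩, fun n => (g.ok n).2.1,
    fun m n e x => (g.ok n).2.2 m e x⟩, rfl⟩

instance : o1.Faithful where
  map_injective {X Y} _ _ h := P251C.OSp.Hom.ext (funext fun n => ContinuousMap.ext fun x =>
    congrArg (fun g : P251CX.Mor (o1.obj X) (o1.obj Y) => g.app n x) h)

/-- the comparison with the orthogonal spectra of the statement -/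
def o0 : M0 ⥤ P251CX.OSp := o1

theorem o0_obj (X : M0) : o0.obj X = P251CX.nw X := rfl

theorem o0_map_app {X Y : M0} (f : X ⟶ Y) (n : ℕ) (x : (o0.obj X).sp n) :
    (o0.map f).app n x = P251C.OSp.Hom.app f n x := rfl

instance : o0.Full := inferInstanceAs o1.Full

instance : o0.Faithful := inferInstanceAs o1.Faithful

theorem o0_obj_o (X : P251CX.OSp) : o0.obj (P251CX.o X) = X := rfl

variable (G : Type) [Group G]

/-- the reflector -/
abbrev rA : Action CF G ⥤ Action M0 G := (RM.r R).mapAction G

/-- the inclusion -/
abbrev qA : Action M0 G ⥤ Action CF G := (RM.q R).mapAction G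

/-- the adjunction -/
abbrev adj : rA G ⊣ qA G := adjA G (RM.adj R)

/-- the comparison with the orthogonal `G`-spectra of the statement -/
abbrev oA : Action M0 G ⥤ Action P251CX.OSp G := o0.mapAction G

theorem oA_full : (oA G).Full := inferInstance

theorem oA_faithful : (oA G).Faithful := inferInstance

theorem oA_surj : Function.Surjective (oA G).obj :=
  fun X => ⟨(P251CX.F.mapAction G).obj X, rfl⟩

variable {G}

theorem isIso_unit (X : Action CF G) (h : P251CH.GoodP X.V) : IsIso ((adj G).unit.app X) :=
  haveI : IsIso ((adj G).unit.app X).hom := (P251CV.isIso_adj_unit_iff X.V).2 h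
  Action.isIso_of_hom_isIso _

theorem hjA (K : LG G) : IsIso ((adj G).unit.app ((jC.mapAction G).obj K)) :=
  isIso_unit _ (P251CV.goodP_jC K.V)

theorem hfinA (ι : Type) (X : ι → Action M0 G) :
    IsIso ((adj G).unit.app (∐ fun i => (qA G).obj (X i))) :=
  isIso_unit _ (P251CV.goodP_of_iso
    (PreservesCoproduct.iso (Action.forget CF G) fun i => (qA G).obj (X i)).symm
    (P251CV.goodP_sigma _ fun i => P251CV.qE.goodP_q (X i).V))

variable [Finite G]

theorem hjA' [GIn G (Action CF G)] (h : GIn.JG (Action CF G) = jC.mapAction G) (K : LG G) :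
    IsIso ((adj G).unit.app ((GIn.JG (Action CF G)).obj K)) := by
  rw [h]
  exact hjA K

/-- the input structure on orthogonal `G`-spectra -/
@[instance_reducible]
def ginM [GIn G (Action CF G)] (h : GIn.JG (Action CF G) = jC.mapAction G) :
    GIn G (Action M0 G) := refl (adj G) (hjA' h) hfinA

end Vale.Agent.P241GM
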