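import Vale.Agent.P241GM.Mod
import Vale.Agent.P241GK.Def

/-!
# P241G: the input structures of the concrete model
-/

open CategoryTheory MonoidalCategory Limits

noncomputable section

namespace Vale.Agent.P241GM

open P251.G P251.H P241GA P241GK P251CA P251CA.CF

variable (G : Type) [Group G]

theorem hjK (K : LG G) : IsIso ((adG G).unit.app ((jC.mapAction G).obj K)) := hjA K

theorem hfinK (ι : Type) (X : ι → MG G) :
    IsIso ((adG G).unit.app (∐ fun i => (P241GK.qA G).obj (X i))) := hfinA ι X

variable [Finite G]

/-- the input structure on the continuous functors with an action -/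
@[instance_reducible]
def ginC : GIn G (Action CF G) :=
  mkGIn jC isZero_F_empty (fun _ _ _ _ hi h => isPushout_F_LCPQ hi h) (FG G) (SA (AG G 1)) (eG G)
    (lamA (AG G 1)) (fun X K => ev0_bij (lev G 1) K X) (rotA (rhoG G 1) (isLin_rhoG G 1))
    (fun n K => fin_tf0 (lev G 1) K n)

/-- the input structure on the model -/
@[instance_reducible]
def ginG : GIn G (MG G) :=
  letI := ginC G
  refl (adG G) (hjK G) (hfinK G)

end Vale.Agent.P241GM
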